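import Mathlib

/-!
# P141, line (A): nested families with packing

`F` a finite laminar family with weights `w`, packing constant `B`; `cnt F le q` = number of members
containing `q` (with `q`). `nest_step`, `nest_pow`: the weight of the members of depth `> i` decays
like `(1 - 1 / B) ^ i`.
-/

namespace Vale.Agent.P141.H740

open Finset

section

variable {α : Type*} (F : Finset α) (le : α → α → Prop)

open scoped Classical in
/-- number of members of `F` above `q` -/
noncomputable def cnt (q : α) : ℕ := #{p ∈ F | le q p}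

open scoped Classical in
/-- above a member of depth at least `i` there is a member of depth exactly `i` -/
theorem exists_cnt (refl : ∀ q ∈ F, le q q)
    (trans : ∀ p ∈ F, ∀ q ∈ F, ∀ r ∈ F, le p q → le q r → le p r)
    (anti : ∀ p ∈ F, ∀ q ∈ F, le p q → le q p → p = q)
    (lam : ∀ q ∈ F, ∀ p ∈ F, ∀ r ∈ F, le q p → le q r → le p r ∨ le r p)
    {q : α} (hq : q ∈ F) {i : ℕ} (hi : 1 ≤ i) (h : i ≤ cnt F le q) :
    ∃ p ∈ F, le q p ∧ cnt F le p = i := by
  set U : Finset α := {p ∈ F | le q p} with hU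
  have hmaps : ∀ p ∈ U, cnt F le p ∈ Icc 1 (#U) := by
    intro p hp
    rw [hU, mem_filter] at hp
    refine mem_Icc.2 ⟨card_pos.2 ⟨p, mem_filter.2 ⟨hp.1, refl p hp.1⟩⟩, card_le_card ?_⟩
    intro r hr
    rw [mem_filter] at hr
    exact mem_filter.2 ⟨hr.1, trans q hq p hp.1 r hr.1 hp.2 hr.2⟩
  have hlt : ∀ p ∈ U, ∀ r ∈ U, le p r → p ≠ r → cnt F le r < cnt F le p := by
    intro p hp r hr hpr hne
    rw [hU, mem_filter] at hp hr
    refine card_lt_card ⟨?_, ?_⟩
    · intro s hs
      rw [mem_filter] at hs ⊢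
      exact ⟨hs.1, trans p hp.1 r hr.1 s hs.1 hpr hs.2⟩
    · intro hc
      have h1 : p ∈ ({s ∈ F | le r s} : Finset α) :=
        hc (mem_filter.2 ⟨hp.1, refl p hp.1⟩)
      exact hne (anti p hp.1 r hr.1 hpr (mem_filter.1 h1).2)
  have hinj : Set.InjOn (cnt F le) (U : Set α) := by
    intro p hp r hr he
    by_contra hne
    have hp' := hp
    have hr' := hr
    rw [mem_coe, hU, mem_filter] at hp' hr'
    rcases lam q hq p hp'.1 r hr'.1 hp'.2 hr'.2 with h1 | h1
    · exact absurd he (hlt p hp r hr h1 hne).ne'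
    · exact absurd he (hlt r hr p hp h1 (Ne.symm hne)).ne
  have himg : U.image (cnt F le) = Icc 1 (#U) := by
    refine eq_of_subset_of_card_le (image_subset_iff.2 hmaps) ?_
    rw [card_image_of_injOn hinj]
    simp
  have hmem : i ∈ U.image (cnt F le) := by
    rw [himg]
    exact mem_Icc.2 ⟨hi, h⟩
  obtain ⟨p, hp, hpi⟩ := mem_image.1 hmem
  rw [hU, mem_filter] at hp
  exact ⟨p, hp.1, hp.2, hpi⟩

open scoped Classical in
/-- weight of the members of depth at least `i` -/
noncomputable def SN (w : α → ℝ) (i : ℕ) : ℝ := ∑ q ∈ F with i ≤ cnt F le q, w q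

open scoped Classical in
/-- **One step.** -/
theorem nest_step (refl : ∀ q ∈ F, le q q)
    (trans : ∀ p ∈ F, ∀ q ∈ F, ∀ r ∈ F, le p q → le q r → le p r)
    (anti : ∀ p ∈ F, ∀ q ∈ F, le p q → le q p → p = q)
    (lam : ∀ q ∈ F, ∀ p ∈ F, ∀ r ∈ F, le q p → le q r → le p r ∨ le r p)
    (w : α → ℝ) (hw : ∀ q ∈ F, 0 ≤ w q) {B : ℝ} (hB : 0 < B)
    (pack : ∀ q ∈ F, ∑ p ∈ F with le p q, w p ≤ B * w q) {i : ℕ} (hi : 1 ≤ i) :
    SN F le w (i + 1) ≤ (1 - B⁻¹) * SN F le w i := by
  have h1 : SN F le w i ≤ ∑ p ∈ F with cnt F le p = i, ∑ q ∈ F with le q p, w q := by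
    rw [SN]
    have h2 : ∀ q ∈ F.filter (fun q => i ≤ cnt F le q), w q ≤
        ∑ p ∈ F with cnt F le p = i, if le q p then w q else 0 := by
      intro q hq
      rw [mem_filter] at hq
      obtain ⟨p, hp, hqp, hpi⟩ := exists_cnt F le refl trans anti lam hq.1 hi hq.2
      refine le_trans ?_ (single_le_sum (f := fun p => if le q p then w q else 0) ?_
        (mem_filter.2 ⟨hp, hpi⟩))
      · simp [hqp]
      · intro r _
        split_ifs
        · exact hw q hq.1
        · exact le_rfl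
    refine (sum_le_sum h2).trans ?_
    rw [sum_comm]
    refine sum_le_sum fun p _ => ?_
    rw [← sum_filter, filter_filter]
    refine sum_le_sum_of_subset_of_nonneg ?_ fun q hq _ => hw q (mem_filter.1 hq).1
    intro q hq
    rw [mem_filter] at hq ⊢
    exact ⟨hq.1, hq.2.2⟩
  have h3 : ∑ p ∈ F with cnt F le p = i, ∑ q ∈ F with le q p, w q ≤
      B * ∑ p ∈ F with cnt F le p = i, w p := by
    rw [mul_sum]
    exact sum_le_sum fun p hp => pack p (mem_filter.1 hp).1
  have h4 : SN F le w i = ∑ p ∈ F with cnt F le p = i, w p + SN F le w (i + 1) := by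
    rw [SN, SN, ← sum_union]
    · refine sum_congr ?_ fun _ _ => rfl
      ext q
      simp only [mem_filter, mem_union]
      constructor
      · rintro ⟨hq, h⟩
        rcases Nat.eq_or_lt_of_le h with h | h
        · exact Or.inl ⟨hq, h.symm⟩
        · exact Or.inr ⟨hq, h⟩
      · rintro (⟨hq, h⟩ | ⟨hq, h⟩)
        · exact ⟨hq, h.ge⟩
        · exact ⟨hq, by omega⟩
    · rw [disjoint_left]
      intro q h5 h6
      rw [mem_filter] at h5 h6
      omega
  have h5 : SN F le w i ≤ B * (SN F le w i - SN F le w (i + 1)) := by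
    have : ∑ p ∈ F with cnt F le p = i, w p = SN F le w i - SN F le w (i + 1) := by linarith
    rw [← this]
    exact h1.trans h3
  have h6 : B⁻¹ * SN F le w i ≤ SN F le w i - SN F le w (i + 1) := by
    rw [inv_mul_le_iff₀ hB]
    exact h5
  linarith

open scoped Classical in
/-- **Exponential decay of the deep members.** -/
theorem nest_pow (refl : ∀ q ∈ F, le q q)
    (trans : ∀ p ∈ F, ∀ q ∈ F, ∀ r ∈ F, le p q → le q r → le p r)
    (anti : ∀ p ∈ F, ∀ q ∈ F, le p q → le q p → p = q)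
    (lam : ∀ q ∈ F, ∀ p ∈ F, ∀ r ∈ F, le q p → le q r → le p r ∨ le r p)
    (w : α → ℝ) (hw : ∀ q ∈ F, 0 ≤ w q) {B : ℝ} (hB : 1 ≤ B)
    (pack : ∀ q ∈ F, ∑ p ∈ F with le p q, w p ≤ B * w q) (i : ℕ) :
    SN F le w (i + 1) ≤ (1 - B⁻¹) ^ i * ∑ q ∈ F, w q := by
  have h0 : 0 ≤ 1 - B⁻¹ := by
    have : B⁻¹ ≤ 1 := inv_le_one_of_one_le₀ hB
    linarith
  induction i with
  | zero =>
    simp only [pow_zero, one_mul]
    exact sum_le_sum_of_subset_of_nonneg (filter_subset _ _) fun q hq _ => hw q hq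
  | succ i ih =>
    refine (nest_step F le refl trans anti lam w hw (by linarith) pack (i := i + 1)
      (by omega)).trans ?_
    refine (mul_le_mul_of_nonneg_left ih h0).trans (le_of_eq ?_)
    rw [pow_succ]
    ring

end

end Vale.Agent.P141.H740
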